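import Vale.Agent.P281.H603.TGF.Spec
import Vale.Agent.P281.H456.TG.VSmall
import Vale.Agent.P281.H64.Gen.Lift

/-! # P281, project T-GF, block F6 (helper456): the good points are dense -/

open Set Filter Metric Vale.Agent.P281 Vale.Agent.P281.J Vale.Agent.P281.H713
open Vale.Agent.P281.H64.Thin (IsThinSet)
open Vale.Agent.P281.H64.Gen (IsSmallSet)
open Vale.Agent.P281.H64 (Cm)
open Vale.Agent.P281.H150.Gen
open scoped Topology ContDiff Manifold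

noncomputable section

namespace Vale.Agent.P281.H456.TGF

/-- the image by `v` of a thin set, off `S₀`, is contained in a countable union of thin sets -/
theorem image_sthin {p : ℕ} {Y₁ Y : Type} [TopologicalSpace Y₁] [T2Space Y₁] [CompactSpace Y₁]
    [ChartedSpace (Cm p) Y₁] [IsManifold 𝓘(ℂ, Cm p) ω Y₁] [TopologicalSpace Y] [T2Space Y]
    [ChartedSpace (Cm p) Y] [IsManifold 𝓘(ℂ, Cm p) ω Y] {v : Y₁ → Y} {S₀ : Set Y} {H : Set Y₁}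
    (hv : ContMDiff 𝓘(ℂ, Cm p) 𝓘(ℂ, Cm p) ω v)
    (het : ∀ y₁, v y₁ ∉ S₀ → Function.Injective (mfderiv 𝓘(ℂ, Cm p) 𝓘(ℂ, Cm p) v y₁))
    (hH : IsThinSet (Cm p) H) : SThin (Cm p) (v '' (H \ v ⁻¹' S₀)) := by
  have hsc : SecondCountableTopology Y₁ := ChartedSpace.secondCountable_of_sigmaCompact (Cm p) Y₁
  have hlc : LocallyCompactSpace Y₁ := ChartedSpace.locallyCompactSpace (Cm p) Y₁
  refine SThin.image_of_local fun z hz => ?_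
  obtain ⟨U, s, hU, hzU, hs⟩ := H456.TG.ift hv (het z hz.2)
  obtain ⟨N, hN1, hN2, hN3⟩ := local_compact_nhds (hU.mem_nhds hzU)
  refine ⟨N, hN1, ?_⟩
  refine (SThin.of_thin (H456.TG.thin_image hv hU hs hN3 hN2 hH) subset_rfl).mono ?_
  rintro _ ⟨w, ⟨hw1, hw2⟩, rfl⟩
  exact ⟨w, ⟨hw1.1, hw2⟩, rfl⟩

theorem denseF : H603.TGF.DenseFStmt := by
  intro p Y₁ Y _ _ _ _ _ _ _ _ _ v S₀ H H₁ hv hS₀ het hH hH₁
  have h1 : SThin (Cm p) (⋃ k, H k) := SThin.iUnion fun k => SThin.of_thin (hH k) subset_rfl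
  have h2 : SThin (Cm p) (⋃ k, v '' (H₁ k \ v ⁻¹' S₀)) :=
    SThin.iUnion fun k => image_sthin hv het (hH₁ k)
  have h3 : SThin (Cm p) (S₀ ∪ ((⋃ k, H k) ∪ ⋃ k, v '' (H₁ k \ v ⁻¹' S₀))) :=
    SThin.union hS₀.2 (h1.union h2)
  have h4 : Dense (S₀ ∪ ((⋃ k, H k) ∪ ⋃ k, v '' (H₁ k \ v ⁻¹' S₀)))ᶜ :=
    H64.Gen.Cov.dense_compl h3
  refine h4.mono ?_
  intro y hy
  refine ⟨fun k hk => hy (Or.inr (Or.inl (mem_iUnion.2 ⟨k, hk⟩))), ?_⟩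
  rintro y₁ rfl k hk
  by_cases h : v y₁ ∈ S₀
  · exact hy (Or.inl h)
  · exact hy (Or.inr (Or.inr (mem_iUnion.2 ⟨k, y₁, ⟨hk, h⟩, rfl⟩)))

end Vale.Agent.P281.H456.TGF
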