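import Vale.Agent.P281.H603.TGF.Spec
import Vale.Agent.P281.H969.TGB.Core
import Vale.Agent.P281.H456.TGF.Dense

/-!
# P281, project T-GF (helper603), block F7 (helper456): the assembly
-/

open Set Filter Metric Vale.Agent.P281 Vale.Agent.P281.H713
open Vale.Agent.P272.K (Chart IsKahler IsHermitian Cm)
open Vale.Agent.P281.MF Vale.Agent.P281.ISO
open Vale.Agent.P281.H713.TZ
open Vale.Agent.P281.H64.Gen (IsSmallSet IsSmall2 IsAnalyticSet NoExc CritStmt ComplStmt)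
open Vale.Agent.P281.H64.Thin (IsThinSet)
open Vale.Agent.P281.H64.TU (Tame KTame TameOK RelFormT HasFormsT)
open Vale.Agent.P281.H969.TL Vale.Agent.P281.H969.TG Vale.Agent.P281.H969.TGB
open Vale.Agent.P281.H603.TGF
open scoped Topology ContDiff Manifold

set_option linter.all false

noncomputable section

namespace Vale.Agent.P281.H456.TGF

/-- **T-GF** from the blocks -/
theorem tgf_of (crit : CritStmt) (fi : H64.TD.FibInStmt) (hBad : BadStmt) (lift : LiftTBStmt)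
    (hTame : TameUStmt) (hVS : VSmallStmt) (hFB : FibBddStmt) (hCard : CardFStmt)
    (hDesc : DescFStmt) : TGFStmt := by
  intro p d X₁ Y₁ X Y _ _ _ _ _ _ _ _ _ _ f₁ Δ₁ f Δ u v S₀ B 𝒢 hd h₁ h hsq hFam hKap
  classical
  obtain ⟨w₁, S₁, hw₁, hS₁, hP₁, hF⟩ := hFam
  obtain ⟨⟨HK, hHK, hKap0⟩, HK₁, hHK₁, hKap1⟩ := hKap
  have : T2Space X₁ := h₁.hausdorff.1
  have : T2Space Y₁ := h₁.hausdorff.2
  have : CompactSpace X₁ := h₁.compact
  have : T2Space X := h.hausdorff.1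
  have : T2Space Y := h.hausdorff.2
  have : CompactSpace X := h.compact
  have : ConnectedSpace X := h.connected
  have : IsManifold 𝓘(ℂ, Cm (p + d)) ω X := h.manifold.1
  have : IsManifold 𝓘(ℂ, Cm p) ω Y := h.manifold.2
  have hsurj : Function.Surjective f := fun y => (h.fibres y).nonempty
  have hsurj₁ : Function.Surjective f₁ := fun y => (h₁.fibres y).nonempty
  have : CompactSpace Y₁ := by
    refine isCompact_univ_iff.1 ?_
    rw [← hsurj₁.range_eq]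
    exact isCompact_range h₁.hol.continuous
  have hprime : ∀ D ∈ hsq.fin.toFinset, J.IsPrime (Cm (p + d)) D := fun D hD =>
    hsq.prime D (by simpa using hD)
  obtain ⟨Sc, hSc, hP⟩ := crit (p + d) p X Y f h.hol h.fibres
  obtain ⟨Sd, hcd, hSd, hne⟩ := fibIn_fin fi hd h.hol hP hSc hsq.fin.toFinset hprime
  obtain ⟨Sb, hdb, hSb, hneB⟩ := hBad p d X Y f Sd B h.hol hSd (hP Sd hcd hSd.1) hsq.small2
    hsq.an
  have hV : IsSmallSet (Cm p) (S₀ ∪ v '' S₁) :=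
    hVS p Y₁ Y v S₀ S₁ hsq.holv hsq.small hsq.etale hS₁
  have hS : IsSmallSet (Cm p) (Sb ∪ (S₀ ∪ v '' S₁)) := hSb.union hV
  obtain ⟨S, hSe⟩ : ∃ S, Sb ∪ (S₀ ∪ v '' S₁) = S := ⟨_, rfl⟩
  rw [hSe] at hS
  have hbS : Sb ⊆ S := by
    rw [← hSe]
    exact subset_union_left
  have hdS : Sd ⊆ S := hdb.trans hbS
  have h0S : S₀ ⊆ S := by
    rw [← hSe]
    exact subset_union_left.trans subset_union_right
  have hvS : ∀ y₁, v y₁ ∉ S → y₁ ∉ S₁ := by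
    intro y₁ h1 h2
    rw [← hSe] at h1
    exact h1 (Or.inr (Or.inr ⟨y₁, h2, rfl⟩))
  have hPS := hP S (hcd.trans hdS) hS.1
  have hnG : ∀ y ∉ S, ∀ D ∈ 𝒢, ¬ f ⁻¹' {y} ⊆ D := fun y hy D hD =>
    hne D (by simpa using hD) y fun h3 => hy (hdS h3)
  have hnB : ∀ y ∉ S, ¬ f ⁻¹' {y} ⊆ B := fun y hy => hneB y fun h3 => hy (hbS h3)
  obtain ⟨m, hm⟩ := hCard (p + d) p X₁ X Y u f S B 𝒢 hsq.holu h.hol hsurj hS hPS.submersive
    hsq.small2 hsq.fin hsq.prime fun x₁ h1 h2 => hsq.et x₁ (fun h3 => h1 (h0S h3)) h2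
  let e₀ : Cm (p + d) ≃L[ℂ] (Cm p × Cm d) := ContinuousLinearEquiv.ofFinrankEq (by
    simp)
  have hdense := denseF p Y₁ Y v S₀ HK HK₁ hsq.holv hsq.small hsq.etale hHK hHK₁
  have hbdd : ∀ y ∈ {y : Y | (∀ k, y ∉ HK k) ∧ ∀ y₁, v y₁ = y → ∀ k, y₁ ∉ HK₁ k}, y ∉ S →
      BddAt (p + d) p d f₁ Δ₁ f u v S₁ w₁ e₀ (B ∪ ⋃₀ 𝒢) y := by
    rintro y ⟨hy1, hy2⟩ hyS
    exact hFB p d X₁ Y₁ X Y f₁ Δ₁ f Δ u v S₀ S S₁ B 𝒢 w₁ e₀ y hd hsq h₁.hol h.hol h₁.snc h.snc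
      hS.1 h0S hvS hP₁.submersive hPS.submersive hPS.connected hP₁.connected (hnG y hyS)
      (hnB y hyS) hyS (hKap0 y hy1) fun y₁ h1 => hKap1 y₁ (hy2 y₁ h1)
  have hforms : ∀ y ∉ S, HasFormsT (OffT B (UTame u w₁)) f S e₀ Δ 0 y :=
    hDesc p d m X₁ Y₁ X Y f₁ Δ₁ f Δ u v S₀ S S₁ B 𝒢 w₁ e₀ _ hd hsq h₁.hol h.hol hsurj h₁.snc
      h.snc hS.1 h0S hvS hP₁.submersive hPS.submersive
      (fun y hy => (hPS.connected y hy).isPreconnected)
      (fun y hy => (hP₁.connected y hy).isPreconnected) hnG hnB hm hdense hbdd (hF e₀)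
  have hmain : ((0 : ℕ∞) : WithBot ℕ∞) + TZ.S.kodF (p + d) p Δ (id : X → X) f ≤
        TZ.S.kodX (Cm (p + d)) Δ := by
    refine H303.UF.first_of (r := 0) fun j₂ h₂ => ?_
    exact lift (p + d) p X Y (Cm d) (OffT B (UTame u w₁)) f S e₀ Δ 0 j₂ B hsq.small2
      (tameOffB hsq.small2.1 (hTame (p + d) d X₁ X u w₁ hsq.holu hw₁)) h.hol hS hPS.submersive
      h.snc hforms h₂
  have hmain0 : TZ.S.kodF (p + d) p Δ (id : X → X) f ≤ TZ.S.kodX (Cm (p + d)) Δ := by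
    refine le_trans (le_of_eq ?_) hmain
    exact (zero_add _).symm
  obtain ⟨H, hH, hsub⟩ := hS.2
  refine ⟨H, hH, fun y hy F _ _ i hi => ⟨hmain0, fun hk => ?_⟩⟩
  have hyS : y ∉ S := by
    intro h2
    obtain ⟨k, hk⟩ := mem_iUnion.1 (hsub h2)
    exact hy k hk
  have h2 := H64.TK.finish h.hol h.fibres h.snc hPS hyS hi
    ((add_le_add hk le_rfl).trans ((le_of_eq (zero_add _)).trans hmain0))
  exact ⟨h2.1.1, h2.2⟩

end Vale.Agent.P281.H456.TGF
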